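import Mathlib

/-!
# P022D: the common interface of the patching argument (pure algebra)
-/

set_option linter.all false

open IsLocalRing Filter

noncomputable section

namespace Vale.Agent.P022D.Core

open Classical

/-- power series -/
abbrev PS (O σ : Type) : Type := MvPowerSeries σ O

/-- the inclusion of the ring without the variables `z_i` -/
def io (O σ : Type) [CommRing O] (r : ℕ) : PS O σ →+* PS O (σ ⊕ Fin r) :=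
  (MvPowerSeries.rename (R := O) (Function.Embedding.inl : σ ↪ σ ⊕ Fin r) : PS O σ →ₐ[O] _)

section group
variable {O R Y Γ : Type} [CommRing O] [CommRing R] [Algebra O R] [AddCommGroup Y] [Module R Y]
  [Group Γ] [Fintype Γ]

/-- the action of an element `a` of the group algebra -/
def ac (ρ : Γ → Module.End R Y) (a : Γ → O) : Module.End R Y :=
  ∑ g, algebraMap O R (a g) • ρ g

/-- `K Y` -/
def sp (ρ : Γ → Module.End R Y) (K : Set (Γ → O)) : Submodule R Y :=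
  ⨆ a ∈ K, LinearMap.range (ac ρ a)

/-- `Y[K]` -/
def kr (ρ : Γ → Module.End R Y) (K : Set (Γ → O)) : Submodule R Y :=
  ⨅ a ∈ K, LinearMap.ker (ac ρ a)

/-- `I_H Y` -/
def aug (ρ : Γ → Module.End R Y) (H : Subgroup Γ) : Submodule R Y :=
  ⨆ g ∈ H, LinearMap.range (ρ g - 1)

/-- `Y^H` -/
def fx (ρ : Γ → Module.End R Y) (H : Subgroup Γ) : Submodule R Y :=
  ⨅ g ∈ H, LinearMap.ker (ρ g - 1)

/-- the norm of `H` -/
def nm (ρ : Γ → Module.End R Y) (H : Subgroup Γ) : Module.End R Y :=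
  ∑ g ∈ Finset.univ.filter (fun g => g ∈ H), ρ g

end group

/-- group data: `Γ = ∏ PGL₂(F_l)`, a Sylow 2-subgroup, the Borel subgroups, the factors, the
relations of the modules `σ_J`, the Whittaker idempotent, the multiplicities -/
structure GD (O L Γ : Type) [Group Γ] where
  S : Subgroup Γ
  Bl : L → Subgroup Γ
  Gl : L → Subgroup Γ
  kk : Finset L → Finset (Γ → O)
  e : Γ → O
  m : Finset L → ℕ

/-- **output of block REP** -/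
def REPH {O L Γ : Type} [CommRing O] [Group Γ] [Fintype Γ] (ϖ : O) (D : GD O L Γ) : Prop :=
  IsPGroup 2 D.S ∧ Odd D.S.index ∧
  ∀ (R Y : Type) [CommRing R] [Algebra O R] [AddCommGroup Y] [Module R Y]
    (ρ : Γ →* Module.End R Y), (∀ y : Y, algebraMap O R ϖ • y = 0) →
    ac ρ D.e * ac ρ D.e = ac ρ D.e ∧
    (∀ J l, l ∉ J → aug ρ (D.Gl l) ≤ sp ρ (D.kk J : Set (Γ → O))) ∧
    (Module.length R Y ≠ ⊤ → (∀ y, nm ρ D.S y = 0 → y ∈ aug ρ D.S) →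
      (∀ J, (D.m J : ℕ∞) * Module.length R (Y ⧸ sp ρ (D.kk J : Set (Γ → O))) ≤
        Module.length R (LinearMap.range (ac ρ D.e))) ∧
      ∀ J l, l ∈ J → Module.length R (Y ⧸ aug ρ (D.Bl l)) ≤
        2 * Module.length R (Y ⧸ aug ρ (D.Gl l)) → sp ρ (D.kk J : Set (Γ → O)) = ⊤)

/-- **row SPLIT**: a quotient which is free over the Sylow subgroup splits off -/
def SPLIT : Prop :=
  ∀ (R Y Γ : Type) [CommRing R] [AddCommGroup Y] [Module R Y] [Group Γ] [Fintype Γ]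
    (ρ : Γ →* Module.End R Y) (S : Subgroup Γ) (Y' : Submodule R Y), IsPGroup 2 S → Odd S.index →
    (∀ y : Y, y + y = 0) → (∀ g, ∀ y ∈ Y', ρ g y ∈ Y') →
    (∀ y, nm ρ S y ∈ Y' → y ∈ aug ρ S ⊔ Y') →
    ∃ π : Y →+ Y, (∀ y, π y ∈ Y') ∧ (∀ y ∈ Y', π y = y) ∧ ∀ g y, π (ρ g y) = ρ g (π y)

/-- the type of a prime -/
def ty {A L : Type} [CommRing A] [Fintype L] (τl : L → Set A) (η : Ideal A) : Finset L :=
  Finset.univ.filter fun l => ¬ τl l ⊆ (η : Set A)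

/-- the ideal of the special fibre -/
def I0 {O σ ι : Type} [CommRing O] (ϖ : O) (f : ι → PS O σ) : Ideal (PS O σ) :=
  Ideal.span (Set.range f) ⊔ Ideal.span {MvPowerSeries.C ϖ}

/-- **output of block LOC**; `d = 2 r + 4 #T + 2` is the dimension of the special fibre -/
structure LOCH {O σ ι L : Type} [CommRing O] [Fintype σ] [Fintype ι] [Fintype L] (ϖ : O)
    (f : ι → PS O σ) (τl : L → Set (PS O σ)) (Dl : L → PS O σ) (m : Finset L → ℕ) (d : ℕ) :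
    Prop where
  card : Fintype.card ι + d = Fintype.card σ
  dim : ∀ η : Ideal (PS O σ), η.IsPrime → I0 ϖ f ≤ η → ringKrullDim (PS O σ ⧸ η) ≤ d
  inj : ∀ η η' : Ideal (PS O σ), η.IsPrime → η'.IsPrime → I0 ϖ f ≤ η → I0 ϖ f ≤ η' →
    (d : WithBot ℕ∞) ≤ ringKrullDim (PS O σ ⧸ η) → (d : WithBot ℕ∞) ≤ ringKrullDim (PS O σ ⧸ η') →
    ty τl η = ty τl η' → η = η'
  len : ∀ (η : Ideal (PS O σ)) [η.IsPrime], I0 ϖ f ≤ η →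
    (d : WithBot ℕ∞) ≤ ringKrullDim (PS O σ ⧸ η) →
    Module.length (Localization.AtPrime η) (Localization.AtPrime η ⧸
      (I0 ϖ f).map (algebraMap (PS O σ) (Localization.AtPrime η))) ≤ m (ty τl η)
  tr : ∀ η : Ideal (PS O σ), η.IsPrime → I0 ϖ f ≤ η →
    (d : WithBot ℕ∞) ≤ ringKrullDim (PS O σ ⧸ η) → ∀ l, l ∉ ty τl η → Dl l ∉ η

/-- the data which do not depend on the modules -/
structure CD (O σ ι L Wd : Type) [CommRing O] (r a : ℕ) where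
  f : ι → PS O σ
  τl : L → Set (PS O σ)
  Dl : L → PS O σ
  x : PS O σ →+* O
  xv : Wd → O
  kill : ℕ → Wd → Prop
  c : ℕ
  y2 : ℕ → Fin r → PS O (σ ⊕ Fin r)
  w : ℕ → Fin a → PS O σ
  tq : ℕ → Fin r → PS O σ
  dq : ℕ → Fin r → PS O σ
  D : ℕ → PS O σ

section
variable {O σ ι L Wd : Type} [CommRing O] {r a : ℕ}

/-- the first variable at an auxiliary prime -/
def y1 (O σ : Type) [CommRing O] {r : ℕ} (i : Fin r) : PS O (σ ⊕ Fin r) :=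
  MvPowerSeries.X (Sum.inr i)

/-- all the variables of the ring over which the modules are free -/
def CD.y (X : CD O σ ι L Wd r a) (n : ℕ) : Fin r ⊕ Fin r ⊕ Fin a → PS O (σ ⊕ Fin r) :=
  Sum.elim (y1 O σ) (Sum.elim (X.y2 n) fun j => io O σ r (X.w n j))

/-- the elements which kill all the modules of level `n` -/
def CD.rel (X : CD O σ ι L Wd r a) (n : ℕ) : Set (PS O (σ ⊕ Fin r)) :=
  Set.range (fun j => io O σ r (X.f j)) ∪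
    Set.range (fun i => io O σ r (X.tq n i) - (2 + y1 O σ i + X.y2 n i)) ∪
    Set.range (fun i => io O σ r (X.dq n i) - (1 + y1 O σ i) * (1 + X.y2 n i))

/-- the conditions on the point -/
structure CD.Pt (X : CD O σ ι L Wd r a) [IsLocalRing O] (ϖ : O) : Prop where
  xC : ∀ o, X.x (MvPowerSeries.C o) = o
  xX : ∀ s, X.x (MvPowerSeries.X s) ∈ maximalIdeal O
  xm : ∀ u : PS O σ, MvPowerSeries.constantCoeff u ∈ maximalIdeal O → X.x u ∈ maximalIdeal O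
  xf : ∀ j, X.x (X.f j) = 0
  xw : ∀ n j, X.x (X.w n j) = 0
  xt : ∀ n i, X.x (X.tq n i) = 2
  xd : ∀ n i, X.x (X.dq n i) = 1
  xD : ∃ v : ℕ, ∀ n, ¬ ϖ ^ v ∣ X.x (X.D n)
  ym : ∀ n i, MvPowerSeries.constantCoeff (X.y n i) ∈ maximalIdeal O

/-- the conclusion -/
def CD.Out (X : CD O σ ι L Wd r a) (ϖ : O) : Prop :=
  ∀ j : ℕ, ∃ j0 : ℕ, ∀ t, X.kill j0 t → ϖ ^ j ∣ X.xv t

end

section modules
variable {O σ ι L Γ Wd : Type} [CommRing O] [IsLocalRing O] [Fintype σ] [Fintype L] [Group Γ]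
  [Fintype Γ] {r a : ℕ}

/-- **patching data**, finitely generated form -/
structure PD (ϖ : O) (G : GD O L Γ) (X : CD O σ ι L Wd r a) (Mb C : ℕ → Type) (G0 : Type)
    [∀ n, AddCommGroup (Mb n)] [∀ n, Module (PS O (σ ⊕ Fin r)) (Mb n)]
    [∀ n, AddCommGroup (C n)] [∀ n, Module (PS O (σ ⊕ Fin r)) (C n)]
    [AddCommGroup G0] [Module (PS O (σ ⊕ Fin r)) G0] where
  b : ℕ
  ρ : ∀ n, Γ →* Module.End (PS O (σ ⊕ Fin r)) (Mb n)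
  ρ0 : Γ →* Module.End (PS O (σ ⊕ Fin r)) G0
  P : ∀ n, Mb n →ₗ[PS O (σ ⊕ Fin r)] G0
  q : ∀ n, C n →ₗ[PS O (σ ⊕ Fin r)] Mb n
  genM : ∀ n, ∃ s : Fin b → Mb n, Submodule.span (PS O (σ ⊕ Fin r)) (Set.range s) = ⊤
  genC : ∀ n, ∃ s : Fin b → C n, Submodule.span (PS O (σ ⊕ Fin r)) (Set.range s) = ⊤
  fin0 : Module.Finite (PS O (σ ⊕ Fin r)) G0
  piM : ∀ n (m : Mb n), (MvPowerSeries.C ϖ : PS O (σ ⊕ Fin r)) • m = 0
  pi0 : ∀ m : G0, (MvPowerSeries.C ϖ : PS O (σ ⊕ Fin r)) • m = 0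
  relM : ∀ n, ∀ u ∈ X.rel n, ∀ m : Mb n, u • m = 0
  relC : ∀ n, ∀ u ∈ X.rel n, ∀ m : C n, u • m = 0
  nilM : ∀ n i (m : Mb n), X.y n i ^ 2 ^ n • m = 0
  free : ∀ n (m : Mb n), (∏ i, X.y n i ^ (2 ^ n - 1)) • nm (ρ n) G.S m = 0 →
    m ∈ Ideal.span (Set.range (X.y n)) • (⊤ : Submodule (PS O (σ ⊕ Fin r)) (Mb n)) ⊔ aug (ρ n) G.S
  Peq : ∀ n g m, P n (ρ n g m) = ρ0 g (P n m)
  Py : ∀ n i m, P n (X.y n i • m) = 0
  Pker : ∀ n m, P n m = 0 → io O σ r (X.D n) ^ X.c • m ∈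
    Ideal.span (Set.range (X.y n)) • (⊤ : Submodule (PS O (σ ⊕ Fin r)) (Mb n))
  Pran : ∀ n (m : G0), io O σ r (X.D n) ^ X.c • m ∈ LinearMap.range (P n)
  qran : ∀ n, LinearMap.range (q n) = LinearMap.range (ac (ρ n) G.e)
  qker : ∀ n m, q n m = 0 ↔ ∃ m', m = (MvPowerSeries.C ϖ : PS O (σ ⊕ Fin r)) • m'
  piC : ∀ n (m : C n), (MvPowerSeries.C ϖ : PS O (σ ⊕ Fin r)) ^ (n + 1) • m = 0
  flat : ∀ n (m : C n), (MvPowerSeries.C ϖ : PS O (σ ⊕ Fin r)) ^ n • m = 0 →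
    ∃ m', m = (MvPowerSeries.C ϖ : PS O (σ ⊕ Fin r)) • m'
  grp : ∀ n i (m : C n), (1 + X.y n i) ^ 2 ^ n • m = m
  cyc : ∀ n, ∃ m0 : C n, ∀ m : C n, ∃ u : PS O (σ ⊕ Fin r),
    (∏ i, (y1 O σ i - X.y2 n i)) ^ X.c • m = u • m0
  unr : ∀ n l, ∀ u ∈ X.τl l, ∀ m : Mb n, io O σ r u • m ∈ aug (ρ n) (G.Gl l)
  new : ∀ n l, ∃ p : ((Mb n ⧸ aug (ρ n) (G.Gl l)) × (Mb n ⧸ aug (ρ n) (G.Gl l)))
      →ₗ[PS O (σ ⊕ Fin r)] (Mb n ⧸ aug (ρ n) (G.Bl l)),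
    ∀ m : Mb n ⧸ aug (ρ n) (G.Bl l), io O σ r (X.Dl l) ^ X.c • m ∈ LinearMap.range p
  big : ∀ J, ∃ 𝔭 : Ideal (PS O (σ ⊕ Fin r)), 𝔭.IsPrime ∧
    (2 : WithBot ℕ∞) ≤ ringKrullDim (PS O (σ ⊕ Fin r) ⧸ 𝔭) ∧
    (∀ u : PS O (σ ⊕ Fin r), (∀ m : G0, u • m ∈ sp ρ0 (G.kk J : Set (Γ → O))) → u ∈ 𝔭) ∧
    ∃ k : ℕ, ∀ n, io O σ r (X.D n) ∉ 𝔭 ⊔ maximalIdeal (PS O (σ ⊕ Fin r)) ^ k
  desc : ∀ t, ∀ᶠ n in atTop, ∃ u : PS O σ, X.x u = X.xv t ∧ ∀ j ≤ n, X.kill j t → ∀ m : C n,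
    io O σ r (X.D n ^ X.c * u) • m ∈
      (Ideal.span (Set.range (X.y n)) ⊔ Ideal.span {(MvPowerSeries.C ϖ : PS O (σ ⊕ Fin r)) ^ j}) •
        (⊤ : Submodule (PS O (σ ⊕ Fin r)) (C n))

/-- **patching data**, discrete form (spaces of forms); `Γ` acts on the right -/
structure HD (ϖ : O) (G : GD O L Γ) (X : CD O σ ι L Wd r a) (Wb Wc : ℕ → Type) (W0 : Type)
    [∀ n, AddCommGroup (Wb n)] [∀ n, Module (PS O (σ ⊕ Fin r)) (Wb n)]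
    [∀ n, AddCommGroup (Wc n)] [∀ n, Module (PS O (σ ⊕ Fin r)) (Wc n)]
    [AddCommGroup W0] [Module (PS O (σ ⊕ Fin r)) W0] where
  b : ℕ
  ρ : ∀ n, Γ → Module.End (PS O (σ ⊕ Fin r)) (Wb n)
  ρ0 : Γ → Module.End (PS O (σ ⊕ Fin r)) W0
  P : ∀ n, W0 →ₗ[PS O (σ ⊕ Fin r)] Wb n
  q : ∀ n, Wb n →ₗ[PS O (σ ⊕ Fin r)] Wc n
  one : ∀ n, ρ n 1 = 1
  mul : ∀ n g h, ρ n (g * h) = ρ n h * ρ n g
  one0 : ρ0 1 = 1
  mul0 : ∀ g h, ρ0 (g * h) = ρ0 h * ρ0 g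
  locM : ∀ n (w : Wb n), ∃ k : ℕ, ∀ u ∈ maximalIdeal (PS O (σ ⊕ Fin r)) ^ k, u • w = 0
  locC : ∀ n (w : Wc n), ∃ k : ℕ, ∀ u ∈ maximalIdeal (PS O (σ ⊕ Fin r)) ^ k, u • w = 0
  loc0 : ∀ w : W0, ∃ k : ℕ, ∀ u ∈ maximalIdeal (PS O (σ ⊕ Fin r)) ^ k, u • w = 0
  socM : ∀ n, ∃ s : Fin b → Wb n, ∀ w : Wb n,
    (∀ u ∈ maximalIdeal (PS O (σ ⊕ Fin r)), u • w = 0) →
      w ∈ Submodule.span (PS O (σ ⊕ Fin r)) (Set.range s)
  soc0 : ∃ s : Fin b → W0, ∀ w : W0, (∀ u ∈ maximalIdeal (PS O (σ ⊕ Fin r)), u • w = 0) →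
      w ∈ Submodule.span (PS O (σ ⊕ Fin r)) (Set.range s)
  piM : ∀ n (w : Wb n), (MvPowerSeries.C ϖ : PS O (σ ⊕ Fin r)) • w = 0
  pi0 : ∀ w : W0, (MvPowerSeries.C ϖ : PS O (σ ⊕ Fin r)) • w = 0
  relM : ∀ n, ∀ u ∈ X.rel n, ∀ w : Wb n, u • w = 0
  relC : ∀ n, ∀ u ∈ X.rel n, ∀ w : Wc n, u • w = 0
  nilM : ∀ n i (w : Wb n), X.y n i ^ 2 ^ n • w = 0
  free : ∀ n (w : Wb n), (∀ i, X.y n i • w = 0) → w ∈ fx (ρ n) G.S →
    ∃ w', w = (∏ i, X.y n i ^ (2 ^ n - 1)) • nm (ρ n) G.S w'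
  Peq : ∀ n g w, P n (ρ0 g w) = ρ n g (P n w)
  Py : ∀ n i w, X.y n i • P n w = 0
  Pker : ∀ n w, P n w = 0 → io O σ r (X.D n) ^ X.c • w = 0
  Pran : ∀ n (w : Wb n), (∀ i, X.y n i • w = 0) →
    io O σ r (X.D n) ^ X.c • w ∈ LinearMap.range (P n)
  qker : ∀ n w, q n w = 0 ↔ ac (ρ n) G.e w = 0
  qran : ∀ n w, w ∈ LinearMap.range (q n) ↔ (MvPowerSeries.C ϖ : PS O (σ ⊕ Fin r)) • w = 0
  piC : ∀ n (w : Wc n), (MvPowerSeries.C ϖ : PS O (σ ⊕ Fin r)) ^ (n + 1) • w = 0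
  flat : ∀ n (w : Wc n), (MvPowerSeries.C ϖ : PS O (σ ⊕ Fin r)) • w = 0 →
    ∃ w', w = (MvPowerSeries.C ϖ : PS O (σ ⊕ Fin r)) ^ n • w'
  grp : ∀ n i (w : Wc n), (1 + X.y n i) ^ 2 ^ n • w = w
  cyc : ∀ n, ∃ χ : CharacterModule (Wc n), ∀ w : Wc n,
    (∀ u : PS O (σ ⊕ Fin r), χ (u • w) = 0) → (∏ i, (y1 O σ i - X.y2 n i)) ^ X.c • w = 0
  unr : ∀ n l, ∀ u ∈ X.τl l, ∀ w ∈ fx (ρ n) (G.Gl l), io O σ r u • w = 0
  new : ∀ n l, ∃ p : fx (ρ n) (G.Bl l) →ₗ[PS O (σ ⊕ Fin r)]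
      (fx (ρ n) (G.Gl l) × fx (ρ n) (G.Gl l)),
    ∀ w, p w = 0 → io O σ r (X.Dl l) ^ X.c • w = 0
  big : ∀ J, ∃ 𝔭 : Ideal (PS O (σ ⊕ Fin r)), 𝔭.IsPrime ∧
    (2 : WithBot ℕ∞) ≤ ringKrullDim (PS O (σ ⊕ Fin r) ⧸ 𝔭) ∧
    (∀ u : PS O (σ ⊕ Fin r), (∀ w ∈ kr ρ0 (G.kk J : Set (Γ → O)), u • w = 0) → u ∈ 𝔭) ∧
    ∃ k : ℕ, ∀ n, io O σ r (X.D n) ∉ 𝔭 ⊔ maximalIdeal (PS O (σ ⊕ Fin r)) ^ k
  desc : ∀ t, ∀ᶠ n in atTop, ∃ u : PS O σ, X.x u = X.xv t ∧ ∀ j ≤ n, X.kill j t → ∀ w : Wc n,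
    (MvPowerSeries.C ϖ : PS O (σ ⊕ Fin r)) ^ j • w = 0 → (∀ i, X.y n i • w = 0) →
      io O σ r (X.D n ^ X.c * u) • w = 0

end modules

/-- the coefficient ring -/
class Coef (O : Type) [CommRing O] [IsDomain O] [IsDiscreteValuationRing O] : Prop where
  cpl : IsAdicComplete (maximalIdeal O) O
  fin : Finite (ResidueField O)
  two : (2 : O) ∈ maximalIdeal O
  ne : (2 : O) ≠ 0

/-- **block DUAL** -/
def DUAL : Prop :=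
  ∀ (O σ ι L Γ Wd : Type) [CommRing O] [IsDomain O] [IsDiscreteValuationRing O] [Coef O]
    [Fintype σ] [Fintype L] [Group Γ] [Fintype Γ] (r a : ℕ) (ϖ : O) (G : GD O L Γ)
    (X : CD O σ ι L Wd r a) (Wb Wc : ℕ → Type) (W0 : Type)
    [∀ n, AddCommGroup (Wb n)] [∀ n, Module (PS O (σ ⊕ Fin r)) (Wb n)]
    [∀ n, AddCommGroup (Wc n)] [∀ n, Module (PS O (σ ⊕ Fin r)) (Wc n)]
    [AddCommGroup W0] [Module (PS O (σ ⊕ Fin r)) W0], Irreducible ϖ → HD ϖ G X Wb Wc W0 →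
    Nonempty (PD ϖ G X (fun n => CharacterModule (Wb n)) (fun n => CharacterModule (Wc n))
      (CharacterModule W0))

/-- **block END** (patching, lengths, descent) -/
def END : Prop :=
  ∀ (O σ ι L Γ Wd : Type) [CommRing O] [IsDomain O] [IsDiscreteValuationRing O] [Coef O]
    [Fintype σ] [Fintype ι] [Fintype L] [Group Γ] [Fintype Γ] (r a : ℕ) (ϖ : O) (G : GD O L Γ)
    (X : CD O σ ι L Wd r a) (Mb C : ℕ → Type) (G0 : Type)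
    [∀ n, AddCommGroup (Mb n)] [∀ n, Module (PS O (σ ⊕ Fin r)) (Mb n)]
    [∀ n, AddCommGroup (C n)] [∀ n, Module (PS O (σ ⊕ Fin r)) (C n)]
    [AddCommGroup G0] [Module (PS O (σ ⊕ Fin r)) G0], Irreducible ϖ → REPH ϖ G →
    LOCH ϖ X.f X.τl X.Dl G.m (2 * r + a + 2) → X.Pt ϖ → PD ϖ G X Mb C G0 → X.Out ϖ

end Vale.Agent.P022D.Core
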